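import Vale.Agent.P257.Z.Final
import Vale.Agent.P257.X.PF

/-! The existence of `V(4)`, in the terms of the statement. -/

namespace Vale.Agent.P257.Z

open MvPolynomial TensorProduct Finset CategoryTheory MonoidalCategory Limits Pretriangulated
  Vale.Agent.P257.S

universe v' u

theorem exists_V4 {p : ℕ} [Fact p.Prime] {R : Type} [CommRing R]
    [(Ideal.span {(p : ℤ)}).IsPrime] [IsLocalization.AtPrime R (Ideal.span {(p : ℤ)})]
    {B : S.BPBP p (MvPolynomial ℕ R)}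
    {T : Type u} [Category.{v'} T] [HasZeroObject T] [Preadditive T]
    [HasShift T ℤ] [∀ n : ℤ, (shiftFunctor T n).Additive] [Pretriangulated T] [IsTriangulated T]
    [HasCountableCoproducts T] [MonoidalCategory T]
    {h : T ⥤ ModuleCat.{0} (MvPolynomial ℕ R)} [h.IsHomological]
    [PreservesColimitsOfShape (Discrete ℕ) h] {C : ∀ X, Comod B (h.obj X)}
    {κ : ∀ X Y, h.obj X → h.obj Y → h.obj (X ⊗ Y)} {g : h.obj (𝟙_ T)}
    {d : ∀ X : T, ℕ → ℕ → ℤ → MvPolynomial (ℕ × ℕ) (MvPolynomial ℕ R) ⊗[MvPolynomial ℕ R] h.obj X →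
      MvPolynomial (ℕ × ℕ) (MvPolynomial ℕ R) ⊗[MvPolynomial ℕ R] h.obj X → Prop}
    (hp11 : 11 ≤ p) (hB : B.v = gen (p : R)) (hh : IsBPHomology (𝟙_ T) h C) (hX : IsExactTensor T)
    (hκ : IsProduct h C κ g) (hd : IsANSS h C κ (IsFin p) d)
    (b : MvPolynomial (ℕ × ℕ) (MvPolynomial ℕ R)) (c : ℤ) (hc : ¬ (p : ℤ) ∣ c)
    (hb : IsCocycle (C (𝟙_ T)) 2 (p ^ 2 * vdeg p 1) (b ⊗ₜ g))
    (toda : d (𝟙_ T) (2 * (p - 1) ^ 2 + 1) (2 * p - 1) ((p ^ 3 - p ^ 2 + 1) * vdeg p 1)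
      ((pow B 2 b (p - 1) * X (2 * (p - 1), 0)) ⊗ₜ g)
      ((c • pow B 2 (b₁ p _) (p ^ 2 - p + 1)) ⊗ₜ g)) :
    ∃ (X : T) (x : h.obj X), IsFin p X ∧ IsCyclic (C X) 5 0 x :=
  exists_V4_of_pfacts hp11 (X.pfacts hp11) (isZp_of_isLocalization p R) hB hh hX hκ hd b c hc hb
    toda

end Vale.Agent.P257.Z
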