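import Vale.Agent.P257.Z.Spec
import Vale.Agent.P257.Q.Cochains

/-! From the definitions used in the statement to the ones used in the proof. -/

namespace Vale.Agent.P257.Z

open MvPolynomial TensorProduct CategoryTheory MonoidalCategory Limits Pretriangulated Finset
  Vale.Agent.P257.S

universe v' u

section Cobar

variable {p : ℕ} {A : Type} [CommRing A] {B : S.BPBP p A} {M N K : ModuleCat.{0} A}

theorem src_eq (j : ℕ) : src B j = Q.src B j := by
  induction j with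
  | zero => rfl
  | succ j ih =>
    rw [Q.src, ← ih]
    rfl

theorem shift_eq : shift B = Q.shift B := by
  rw [shift, Q.shift, src_eq]

theorem face_eq (i : ℕ) : face B i = Q.face B i := by
  rw [face, Q.face, src_eq]

theorem act_eq (D : Comod B M) (w : MvPolynomial (ℕ × ℕ) A) (x : M) : act D w x =
    Q.shift B w • LinearMap.rTensor M (rename fun n => ((0 : ℕ), n)).toLinearMap (D.ψ x) := by
  rw [act, shift_eq]
  induction D.ψ x using TensorProduct.induction_on with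
  | zero => simp only [smul_zero, map_zero]
  | add x y hx hy => rw [map_add, map_add, smul_add, hx, hy]
  | tmul g y => simp [smul_tmul']

theorem shiftM_eq (D : Comod B M) : shiftM D = Q.shiftM D := by
  ext z
  induction z using TensorProduct.induction_on with
  | zero => rw [map_zero, map_zero]
  | add x y hx hy => rw [map_add, map_add, hx, hy]
  | tmul w y => exact act_eq D w y

theorem cobar_eq (D : Comod B M) (s : ℕ) (x : MvPolynomial (ℕ × ℕ) A ⊗[A] M) :
    cobar D s x = Q.cobar D s x := by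
  simp only [cobar, Q.cobar, shiftM_eq, faceM, face_eq]

theorem cochain_eq (D : Comod B M) (s : ℕ) (t : ℤ) : cochain D s t = Q.cochain D s t := rfl

theorem isCocycle_iff {D : Comod B M} {s : ℕ} {t : ℤ} {x : MvPolynomial (ℕ × ℕ) A ⊗[A] M} :
    IsCocycle D s t x ↔ Q.IsCocycle D s t x := by
  rw [IsCocycle, Q.IsCocycle, cobar_eq, cochain_eq]

theorem isCobdry_iff {D : Comod B M} {s : ℕ} {t : ℤ} {x : MvPolynomial (ℕ × ℕ) A ⊗[A] M} :
    IsCobdry D s t x ↔ Q.IsCobdry D s t x := by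
  simp only [IsCobdry, Q.IsCobdry, cobar_eq, cochain_eq]

theorem pow_eq (s : ℕ) (b : MvPolynomial (ℕ × ℕ) A) (n : ℕ) : pow B s b n = Q.pow B s b n := by
  induction n with
  | zero => rfl
  | succ n ih => rw [Q.pow, ← ih, pow, Function.iterate_succ_apply', shift_eq]; rfl

theorem b₁_eq : b₁ p A = Q.b₁ p A := rfl

theorem exists_sum {σ : Type} (x : MvPolynomial σ A ⊗[A] M) : ∃ N : ℕ, ∀ n, N ≤ n →
    ∃ (v : ℕ → MvPolynomial σ A) (a : ℕ → M), x = ∑ i ∈ range n, v i ⊗ₜ a i := by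
  induction x using TensorProduct.induction_on with
  | zero => exact ⟨0, fun n _ => ⟨0, 0, by simp⟩⟩
  | tmul w y =>
    refine ⟨1, fun n hn => ⟨fun i => if i = 0 then w else 0, fun _ => y, ?_⟩⟩
    rw [Finset.sum_eq_single_of_mem 0 (by simp; omega) fun i _ hi => by simp [hi]]
    simp
  | add x y hx hy =>
    obtain ⟨N₁, h₁⟩ := hx
    obtain ⟨N₂, h₂⟩ := hy
    refine ⟨N₁ + N₂, fun n hn => ?_⟩
    obtain ⟨v₁, a₁, e₁⟩ := h₁ N₁ le_rfl
    obtain ⟨v₂, a₂, e₂⟩ := h₂ (n - N₁) (by omega)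
    refine ⟨fun i => if i < N₁ then v₁ i else v₂ (i - N₁),
      fun i => if i < N₁ then a₁ i else a₂ (i - N₁), ?_⟩
    conv_rhs => rw [show n = N₁ + (n - N₁) by omega, Finset.sum_range_add]
    rw [e₁]
    nth_rewrite 1 [e₂]
    congr 1
    · refine Finset.sum_congr rfl fun i hi => ?_
      simp [Finset.mem_range.1 hi]
    · refine Finset.sum_congr rfl fun i _ => ?_
      simp

theorem map₂_sum {σ : Type} (κ : M →ₗ[A] N →ₗ[A] K) (n : ℕ) (v w : ℕ → MvPolynomial σ A)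
    (a : ℕ → M) (b : ℕ → N) :
    map₂ (LinearMap.mul A (MvPolynomial σ A)) κ (∑ i ∈ range n, v i ⊗ₜ a i)
      (∑ j ∈ range n, w j ⊗ₜ b j) =
    ∑ i ∈ range n, ∑ j ∈ range n, (v i * w j) ⊗ₜ κ (a i) (b j) := by
  simp only [map_sum, LinearMap.sum_apply, map₂_apply_tmul]
  exact Finset.sum_comm

theorem isMul_map₂ {σ : Type} (κ : M →ₗ[A] N →ₗ[A] K) (x : MvPolynomial σ A ⊗[A] M)
    (y : MvPolynomial σ A ⊗[A] N) :
    IsMul (fun a b => κ a b) x y (map₂ (LinearMap.mul A (MvPolynomial σ A)) κ x y) := by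
  obtain ⟨N₁, h₁⟩ := exists_sum x
  obtain ⟨N₂, h₂⟩ := exists_sum y
  obtain ⟨v, a, e₁⟩ := h₁ (max N₁ N₂) (le_max_left _ _)
  obtain ⟨w, b, e₂⟩ := h₂ (max N₁ N₂) (le_max_right _ _)
  refine ⟨max N₁ N₂, v, w, a, b, e₁, e₂, ?_⟩
  rw [e₁, e₂, map₂_sum]

theorem isMul_eq {σ : Type} (κ : M →ₗ[A] N →ₗ[A] K) {x : MvPolynomial σ A ⊗[A] M}
    {y : MvPolynomial σ A ⊗[A] N} {z : MvPolynomial σ A ⊗[A] K}
    (h : IsMul (fun a b => κ a b) x y z) : z = map₂ (LinearMap.mul A (MvPolynomial σ A)) κ x y := by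
  obtain ⟨n, v, w, a, b, rfl, rfl, rfl⟩ := h
  rw [map₂_sum]

theorem isCup_cup (κ : M →ₗ[A] N →ₗ[A] K) (D : Comod B N) (s : ℕ)
    (x : MvPolynomial (ℕ × ℕ) A ⊗[A] M) (y : MvPolynomial (ℕ × ℕ) A ⊗[A] N) :
    IsCup (fun a b => κ a b) D s x y (Q.cup κ D s x y) := by
  rw [IsCup, Q.cup, shiftM_eq]
  exact isMul_map₂ κ _ _

end Cobar

section Topology

variable {p : ℕ} {A : Type} [CommRing A] {B : S.BPBP p A} {T : Type u} [Category.{v'} T]
  [Preadditive T] [HasShift T ℤ] [MonoidalCategory T] {h : T ⥤ ModuleCat.{0} A}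
  {C : ∀ X, Comod B (h.obj X)} {κ : ∀ X Y, h.obj X → h.obj Y → h.obj (X ⊗ Y)} {g : h.obj (𝟙_ T)}
  {F : T → Prop} {d : ∀ X : T, ℕ → ℕ → ℤ → MvPolynomial (ℕ × ℕ) A ⊗[A] h.obj X →
    MvPolynomial (ℕ × ℕ) A ⊗[A] h.obj X → Prop}

/-- The bilinear map `κ`. -/
noncomputable def bil (hκ : IsProduct h C κ g) (X Y : T) :
    h.obj X →ₗ[A] h.obj Y →ₗ[A] h.obj (X ⊗ Y) :=
  LinearMap.mk₂ A (κ X Y) (hκ.add_left X Y) (hκ.smul_left X Y) (hκ.add_right X Y)
    (hκ.smul_right X Y)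

omit [Preadditive T] in
theorem isProduct (hκ : IsProduct h C κ g) : Q.IsProduct h C (bil hκ) g where
  gen := hκ.gen
  unit := hκ.unit
  nat := hκ.nat
  deg := hκ.deg
  coaction X Y x y := isMul_eq (bil hκ X Y) (hκ.coaction X Y x y)
  sphere := hκ.sphere

/-- The subgroup given by the relation `d`. -/
noncomputable def grp (hd : IsANSS h C κ F d) (X : T) (r s : ℕ) (t : ℤ) :
    AddSubgroup (MvPolynomial (ℕ × ℕ) A ⊗[A] h.obj X × MvPolynomial (ℕ × ℕ) A ⊗[A] h.obj X) :=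
  AddSubgroup.ofSub {z | z = 0 ∨ d X r s t z.1 z.2} ⟨0, Or.inl rfl⟩ fun x hx y hy => by
    have key : ∀ z : MvPolynomial (ℕ × ℕ) A ⊗[A] h.obj X × MvPolynomial (ℕ × ℕ) A ⊗[A] h.obj X,
        d X r s t z.1 z.2 → d X r s t 0 0 := fun z hz => by
      simpa using hd.sub X r s t _ _ _ _ hz hz
    rcases hx with rfl | hx
    · rcases hy with rfl | hy
      · exact Or.inl (by simp)
      · refine Or.inr ?_
        have := hd.sub X r s t _ _ _ _ (key y hy) hy
        simpa using this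
    · rcases hy with rfl | hy
      · exact Or.inr (by simpa using hx)
      · exact Or.inr (by simpa [sub_eq_add_neg] using hd.sub X r s t _ _ _ _ hx hy)

theorem mem_grp {hd : IsANSS h C κ F d} {X : T} {r s : ℕ} {t : ℤ}
    {x y : MvPolynomial (ℕ × ℕ) A ⊗[A] h.obj X} :
    (x, y) ∈ grp hd X r s t ↔ (x, y) = 0 ∨ d X r s t x y := Iff.rfl

theorem mem_grp' {hd : IsANSS h C κ F d} {X : T} {r s : ℕ} {t : ℤ} (hr : 2 ≤ r)
    {x y : MvPolynomial (ℕ × ℕ) A ⊗[A] h.obj X} :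
    (x, y) ∈ grp hd X r s t ↔ d X r s t x y := by
  rw [mem_grp]
  refine or_iff_right_of_imp fun h => ?_
  rw [Prod.mk_eq_zero] at h
  rw [h.1, h.2]
  exact hd.cobdry X r s t 0 hr (Or.inl rfl)

theorem isANSS (hκ : IsProduct h C κ g) (hd : IsANSS h C κ F d) :
    Q.IsANSS h C (bil hκ) F (grp hd) where
  cocycle X r s t x y hxy := by
    rcases mem_grp.1 hxy with h | h
    · rw [Prod.mk_eq_zero] at h
      rw [h.1, h.2]
      exact ⟨⟨zero_mem _, by simp [Q.cobar]⟩, ⟨zero_mem _, by simp [Q.cobar]⟩⟩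
    · exact (hd.cocycle X r s t x y h).imp isCocycle_iff.1 isCocycle_iff.1
  total X s t x hx := by
    obtain ⟨y, hy⟩ := hd.total X s t x (isCocycle_iff.2 hx)
    exact ⟨y, (mem_grp' le_rfl).2 hy⟩
  second X s t y := by rw [mem_grp' le_rfl, hd.second, isCobdry_iff]
  cobdry X r s t x hr hx := (mem_grp' hr).2 (hd.cobdry X r s t x hr (isCobdry_iff.2 hx))
  kernel X r s t x hr := by
    simp only [mem_grp' hr, mem_grp' (hr.trans r.le_succ)]
    exact hd.kernel X r s t x hr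
  image X r s t y hr := by
    simp only [mem_grp' hr, mem_grp' (hr.trans r.le_succ)]
    exact hd.image X r s t y hr
  square X r s t x y hr hxy :=
    (mem_grp' hr).2 (hd.square X r s t x y hr ((mem_grp' hr).1 hxy))
  nat X Y f r s t x y hxy := by
    rcases mem_grp.1 hxy with h | h
    · rw [Prod.mk_eq_zero] at h
      rw [h.1, h.2, map_zero]
      exact zero_mem _
    · exact mem_grp.2 (Or.inr (hd.nat X Y f r s t x y h))
  leibniz X Y r s t s' t' x y x' y' hr hxy hxy' := by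
    rw [mem_grp' hr] at hxy hxy'
    obtain ⟨a, b, hab⟩ := hd.leibniz X Y r s t s' t' x y x' y' _ _ _ hr hxy hxy'
      (isCup_cup (bil hκ X Y) (C Y) s x x') (isCup_cup (bil hκ X Y) (C Y) (s + r) y x')
      (isCup_cup (bil hκ X Y) (C Y) s x y')
    exact ⟨a, b, (mem_grp' hr).2 hab⟩
  edge X t x hF hx hr := hd.edge X t x hF (isCocycle_iff.2 hx) fun r h => (mem_grp' h).1 (hr r h)
  conv X t f hF hf hv := hd.conv X t f hF hf fun s x hs hx =>
    isCobdry_iff.2 (hv s x hs (isCocycle_iff.1 hx))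

end Topology

end Vale.Agent.P257.Z
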