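import Vale.Agent.P257.S.Defs

namespace Vale.Agent.P257.Z

open MvPolynomial TensorProduct CategoryTheory MonoidalCategory Limits Pretriangulated Finset
  Vale.Agent.P257.S

universe v' u

section Cobar

variable {p : ℕ} {A : Type} [CommRing A] (B : BPBP p A)

/-- The source of the `j`-th morphism in a string of composable morphisms of the groupoid of
`BP_*BP`: the variable `(j, n)` is `t_(n+1)` of the `j`-th morphism. -/
noncomputable def src (j : ℕ) : A →+* MvPolynomial (ℕ × ℕ) A :=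
  j.rec C fun i f => (eval₂Hom f fun n => X (i, n)).comp B.η

/-- Forget the first morphism. -/
noncomputable def shift : MvPolynomial (ℕ × ℕ) A →+* MvPolynomial (ℕ × ℕ) A := eval₂Hom (src B 1) fun x => X (x.1 + 1, x.2)

/-- Compose the `i`-th morphism and the next one. -/
noncomputable def face (i : ℕ) : MvPolynomial (ℕ × ℕ) A →ₐ[A] MvPolynomial (ℕ × ℕ) A :=
  aeval fun x => if x.1 < i then X x else if x.1 = i then
    eval₂Hom (src B i) (Sum.elim (fun n => X (i, n)) fun n => X (i + 1, n)) (B.Δ (X x.2))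
  else X (x.1 + 1, x.2)

variable {B} {M N K : ModuleCat.{0} A}

/-- `shift w` times `ψ x` in the variables of the first morphism. -/
noncomputable def act (D : Comod B M) (w : MvPolynomial (ℕ × ℕ) A) (x : M) : MvPolynomial (ℕ × ℕ) A ⊗[A] M :=
  LinearMap.rTensor M (LinearMap.mulLeft A (shift B w) ∘ₗ
    (rename fun n => ((0 : ℕ), n)).toLinearMap) (D.ψ x)

theorem act_add (D : Comod B M) (w : MvPolynomial (ℕ × ℕ) A) (x y : M) : act D w (x + y) = act D w x + act D w y := by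
  rw [act, D.add, map_add]
  rfl

/-- The additive map `act D w`. -/
noncomputable def act₁ (D : Comod B M) (w : MvPolynomial (ℕ × ℕ) A) : M →+ MvPolynomial (ℕ × ℕ) A ⊗[A] M := .mk' (act D w) (act_add D w)

theorem act₁_add (D : Comod B M) (w w' : MvPolynomial (ℕ × ℕ) A) : act₁ D (w + w') = act₁ D w + act₁ D w' := by
  ext x
  have h : LinearMap.mulLeft A (shift B (w + w')) =
      LinearMap.mulLeft A (shift B w) + LinearMap.mulLeft A (shift B w') := by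
    refine LinearMap.ext fun z => ?_
    simp only [LinearMap.mulLeft_apply, LinearMap.add_apply, map_add, add_mul]
  change LinearMap.rTensor M _ _ = LinearMap.rTensor M _ _ + LinearMap.rTensor M _ _
  rw [h, LinearMap.add_comp, LinearMap.rTensor_add, LinearMap.add_apply]

/-- The biadditive map `act D`. -/
noncomputable def act₂ (D : Comod B M) : MvPolynomial (ℕ × ℕ) A →+ M →+ MvPolynomial (ℕ × ℕ) A ⊗[A] M := .mk' (act₁ D) (act₁_add D)

theorem src_one (a : A) :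
    src B 1 a = (rename (R := A) (fun n => ((0 : ℕ), n)) (B.η a) : MvPolynomial (ℕ × ℕ) A) := by
  change eval₂Hom C (fun n => X (0, n)) (B.η a) = _
  rw [← RingHom.congr_fun (ringHom_ext (f := (rename (R := A) fun n => ((0 : ℕ), n)).toRingHom)
    (g := eval₂Hom C fun n => X (0, n)) (by simp) (by simp)) (B.η a)]
  rfl

theorem act_smul (D : Comod B M) (a : A) (w : MvPolynomial (ℕ × ℕ) A) (x : M) :
    act D (a • w) x = act D w (a • x) := by
  rw [act, act, D.smul]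
  induction D.ψ x using TensorProduct.induction_on with
  | zero => simp only [smul_zero, map_zero]
  | add x y hx hy => rw [smul_add, map_add, map_add, hx, hy]
  | tmul g y =>
    rw [smul_tmul', LinearMap.rTensor_tmul, LinearMap.rTensor_tmul]
    congr 1
    simp only [LinearMap.comp_apply, LinearMap.mulLeft_apply, AlgHom.toLinearMap_apply,
      smul_eq_mul, map_mul, ← src_one, smul_eq_C_mul]
    rw [show shift B (C a) = src B 1 a by simp [shift]]
    ring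

/-- Forget the first morphism, on cochains with values in a comodule. -/
noncomputable def shiftM (D : Comod B M) : MvPolynomial (ℕ × ℕ) A ⊗[A] M →+ MvPolynomial (ℕ × ℕ) A ⊗[A] M := liftAddHom (act₂ D) (act_smul D)

/-- `face B i`, with values in `M`. -/
noncomputable def faceM (B : BPBP p A) (i : ℕ) (x : MvPolynomial (ℕ × ℕ) A ⊗[A] M) : MvPolynomial (ℕ × ℕ) A ⊗[A] M :=
  LinearMap.rTensor M (face B i).toLinearMap x

/-- The cobar differential on `C^s`. -/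
noncomputable def cobar (D : Comod B M) (s : ℕ) (x : MvPolynomial (ℕ × ℕ) A ⊗[A] M) : MvPolynomial (ℕ × ℕ) A ⊗[A] M :=
  shiftM D x + ∑ i ∈ range s, (-1 : ℤ) ^ (i + 1) • faceM B i x + (-1 : ℤ) ^ (s + 1) • x

/-- The cochains of cohomological degree `s` and internal degree `t`. -/
noncomputable def cochain (D : Comod B M) (s : ℕ) (t : ℤ) : AddSubgroup (MvPolynomial (ℕ × ℕ) A ⊗[A] M) :=
  AddSubgroup.closure {z | ∃ (e : ℕ × ℕ →₀ ℕ) (k : ℤ) (y : M), (∀ i ∈ e.support, i.1 < s) ∧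
    y ∈ D.deg k ∧ k + (e.sum fun i m => m * vdeg p (i.2 + 1)) = t ∧ z = monomial e 1 ⊗ₜ y}

/-- `x` is a cocycle: it represents a class in `Ext^(s,t)(BP_*, M)`. -/
def IsCocycle (D : Comod B M) (s : ℕ) (t : ℤ) (x : MvPolynomial (ℕ × ℕ) A ⊗[A] M) : Prop :=
  x ∈ cochain D s t ∧ cobar D s x = 0

/-- `x` is a coboundary. -/
def IsCobdry (D : Comod B M) (s : ℕ) (t : ℤ) (x : MvPolynomial (ℕ × ℕ) A ⊗[A] M) : Prop :=
  x = 0 ∨ ∃ n, s = n + 1 ∧ ∃ y ∈ cochain D n t, x = cobar D n y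

/-- The map induced by a map of modules. -/
noncomputable def mapM (f : M ⟶ N) (x : MvPolynomial (ℕ × ℕ) A ⊗[A] M) : MvPolynomial (ℕ × ℕ) A ⊗[A] N := LinearMap.lTensor (MvPolynomial (ℕ × ℕ) A) f.hom x

/-- `z` is the product of `x` and `y`, induced by the products of polynomials and by `κ`. -/
def IsMul {σ : Type} (κ : M → N → K) (x : MvPolynomial σ A ⊗[A] M) (y : MvPolynomial σ A ⊗[A] N)
    (z : MvPolynomial σ A ⊗[A] K) : Prop :=
  ∃ (n : ℕ) (v w : ℕ → MvPolynomial σ A) (a : ℕ → M) (b : ℕ → N),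
    x = ∑ i ∈ range n, v i ⊗ₜ a i ∧ y = ∑ j ∈ range n, w j ⊗ₜ b j ∧
    z = ∑ i ∈ range n, ∑ j ∈ range n, (v i * w j) ⊗ₜ κ (a i) (b j)

/-- `z` is the cup product of `x` of cohomological degree `s` with `y`. -/
def IsCup (κ : M → N → K) (D : Comod B N) (s : ℕ) (x : MvPolynomial (ℕ × ℕ) A ⊗[A] M) (y : MvPolynomial (ℕ × ℕ) A ⊗[A] N) (z : MvPolynomial (ℕ × ℕ) A ⊗[A] K) : Prop :=
  IsMul κ x ((shiftM D)^[s] y) z

/-- Powers, for the cup product, of a cochain `b` of cohomological degree `s`. -/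
noncomputable def pow (B : BPBP p A) (s : ℕ) (b : MvPolynomial (ℕ × ℕ) A) (n : ℕ) : MvPolynomial (ℕ × ℕ) A :=
  (fun c => b * (shift B)^[s] c)^[n] 1

/-- `- b_(1,0)`; it represents `β_1` up to sign. -/
noncomputable def b₁ (p : ℕ) (A : Type) [CommRing A] : MvPolynomial (ℕ × ℕ) A :=
  ∑ i ∈ Ioo 0 p, ((p.choose i / p : ℕ) : MvPolynomial (ℕ × ℕ) A) * X (0, 0) ^ i * X (1, 0) ^ (p - i)

end Cobar

section Topology

variable {p : ℕ} {A : Type} [CommRing A] {B : BPBP p A} {T : Type u} [Category.{v'} T]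
  [Preadditive T] [HasShift T ℤ] [MonoidalCategory T]

/-- `κ` has the properties of the external product of `BP`-homology, `g` generates `BP_*(S)`. -/
structure IsProduct (h : T ⥤ ModuleCat.{0} A) (C : ∀ X, Comod B (h.obj X))
    (κ : ∀ X Y, h.obj X → h.obj Y → h.obj (X ⊗ Y)) (g : h.obj (𝟙_ T)) : Prop where
  gen : IsCyclic (C (𝟙_ T)) 0 0 g
  unit : ∀ X x, (h.map (λ_ X).hom).hom (κ (𝟙_ T) X g x) = x
  add_left : ∀ X Y x x' y, κ X Y (x + x') y = κ X Y x y + κ X Y x' y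
  add_right : ∀ X Y x y y', κ X Y x (y + y') = κ X Y x y + κ X Y x y'
  smul_left : ∀ X Y (a : A) x y, κ X Y (a • x) y = a • κ X Y x y
  smul_right : ∀ X Y (a : A) x y, κ X Y x (a • y) = a • κ X Y x y
  nat : ∀ X X' Y Y' (f : X ⟶ X') (f' : Y ⟶ Y') x y, (h.map (f ⊗ₘ f')).hom (κ X Y x y) =
    κ X' Y' ((h.map f).hom x) ((h.map f').hom y)
  deg : ∀ X Y i j, ∀ x ∈ (C X).deg i, ∀ y ∈ (C Y).deg j, κ X Y x y ∈ (C (X ⊗ Y)).deg (i + j)
  coaction : ∀ X Y x y, IsMul (κ X Y) ((C X).ψ x) ((C Y).ψ y) ((C (X ⊗ Y)).ψ (κ X Y x y))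
  sphere : ∀ (n : ℤ) X, Nonempty ((𝟙_ T)⟦n⟧ ⊗ X ≅ X⟦n⟧) ∧
    ∀ x, IsCyclic (C ((𝟙_ T)⟦n⟧)) 0 n x → Function.Bijective (κ _ X x)

/-- `d X r s t x y` means: the class of `x` in `E_2^(s,t)(X)` survives to `E_r`, and
`d_r [x] = [y]`, for the Adams-Novikov spectral sequence of `X`. -/
structure IsANSS (h : T ⥤ ModuleCat.{0} A) (C : ∀ X, Comod B (h.obj X))
    (κ : ∀ X Y, h.obj X → h.obj Y → h.obj (X ⊗ Y)) (F : T → Prop)
    (d : ∀ X : T, ℕ → ℕ → ℤ → MvPolynomial (ℕ × ℕ) A ⊗[A] h.obj X → MvPolynomial (ℕ × ℕ) A ⊗[A] h.obj X → Prop) : Prop where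
  cocycle : ∀ X r s t x y, d X r s t x y →
    IsCocycle (C X) s t x ∧ IsCocycle (C X) (s + r) (t + r - 1) y
  sub : ∀ X r s t x y x' y', d X r s t x y → d X r s t x' y' → d X r s t (x - x') (y - y')
  total : ∀ X s t x, IsCocycle (C X) s t x → ∃ y, d X 2 s t x y
  second : ∀ X s t y, d X 2 s t 0 y ↔ IsCobdry (C X) (s + 2) (t + 1) y
  cobdry : ∀ X r s t x, 2 ≤ r → IsCobdry (C X) s t x → d X r s t x 0
  kernel : ∀ X r s t x, 2 ≤ r → (d X r s t x 0 ↔ ∃ y, d X (r + 1) s t x y)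
  image : ∀ X r s t y, 2 ≤ r → (d X (r + 1) s t 0 y ↔ ∃ x, d X r (s + 1) (t + 1) x y)
  square : ∀ X r s t x y, 2 ≤ r → d X r s t x y → d X r (s + r) (t + r - 1) y 0
  nat : ∀ X Y (f : X ⟶ Y) r s t x y, d X r s t x y →
    d Y r s t (mapM (h.map f) x) (mapM (h.map f) y)
  leibniz : ∀ X Y r s t s' t' x y x' y' z z₁ z₂, 2 ≤ r → d X r s t x y → d Y r s' t' x' y' →
    IsCup (κ X Y) (C Y) s x x' z → IsCup (κ X Y) (C Y) (s + r) y x' z₁ →
    IsCup (κ X Y) (C Y) s x y' z₂ →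
    ∃ a b : ℤˣ, d (X ⊗ Y) r (s + s') (t + t') z ((a : ℤ) • z₁ + (b : ℤ) • z₂)
  edge : ∀ X t x, F X → IsCocycle (C X) 0 t x → (∀ r, 2 ≤ r → d X r 0 t x 0) →
    ∃ (f : (𝟙_ T)⟦t⟧ ⟶ X) (g : h.obj ((𝟙_ T)⟦t⟧)), IsCyclic (C ((𝟙_ T)⟦t⟧)) 0 t g ∧
      x = 1 ⊗ₜ (h.map f).hom g
  conv : ∀ X t (f : (𝟙_ T)⟦t⟧ ⟶ X), F X → h.map f = 0 →
    (∀ (s : ℕ) x, 1 ≤ s → IsCocycle (C X) s (t + s) x → IsCobdry (C X) s (t + s) x) → f = 0

/-- The functors `- ⊗ X` are exact. -/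
def IsExactTensor (T : Type u) [Category.{v'} T] [Preadditive T] [HasShift T ℤ]
    [MonoidalCategory T] [HasZeroObject T] [∀ n : ℤ, (shiftFunctor T n).Additive]
    [Pretriangulated T] : Prop :=
  ∀ X : T, ∃ _ : (tensorRight X).CommShift ℤ, (tensorRight X).IsTriangulated

/-- `X` is a finite `p`-local spectrum. -/
def IsFin (p : ℕ) [HasZeroObject T] [∀ n : ℤ, (shiftFunctor T n).Additive] [Pretriangulated T]
    (X : T) : Prop :=
  let L : T → Prop := fun X => ∀ m : ℕ, m.Coprime p → IsIso (m • 𝟙 X)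
  ∃ (A B : T) (ι : A ⟶ B) (i : X ⟶ B) (r : B ⟶ X),
    (∀ P : T → Prop, (∀ Y, IsZero Y → P Y) →
      (∀ D ∈ distTriang T, (∃ n : ℤ, Nonempty (D.obj₁ ≅ (𝟙_ T)⟦n⟧)) → P D.obj₂ → P D.obj₃) → P A) ∧
    L B ∧ (∀ Z, L Z → Function.Bijective fun g : B ⟶ Z => ι ≫ g) ∧ i ≫ r = 𝟙 X

end Topology

end Vale.Agent.P257.Z
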